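import Vale.Agent.Lib.P348.helper23.Basics

/-!
# P348, pool job K4 (helper99): a lower bound for the energy on the spin-one ring

For every vector `ψ` on the ring with `L ≥ 2` sites, the energy `⟨ψ, H ψ⟩` is at least
`L ‖ψ‖² - 6 ∑_j (weight of the configurations whose spin at j is not the top one)`.
Bond by bond: the `S^z S^z` part is diagonal and is bounded pointwise; the flip part is bounded
by `‖S^+_x ψ‖² / 2 + ‖S^+_y ψ‖² / 2`.
-/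

namespace Vale.Agent.Lib.P348.H99

open Matrix

open Vale.Agent.Lib.P361 Vale.Agent.Lib.P348

/-! ### inner product basics -/

section generic

variable {n : Type*} [Fintype n]

theorem ip_eq_dot (φ χ : n → ℂ) : ip φ χ = star φ ⬝ᵥ χ := by
  rw [ip_def]
  rfl

theorem ip_add_right (φ u v : n → ℂ) : ip φ (u + v) = ip φ u + ip φ v := by
  rw [ip_eq_dot, ip_eq_dot, ip_eq_dot, dotProduct_add]

theorem ip_smul_right (φ v : n → ℂ) (c : ℂ) : ip φ (c • v) = c * ip φ v := by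
  rw [ip_eq_dot, ip_eq_dot, dotProduct_smul, smul_eq_mul]

theorem ip_sum_right {ι : Type*} (s : Finset ι) (φ : n → ℂ) (v : ι → n → ℂ) :
    ip φ (∑ i ∈ s, v i) = ∑ i ∈ s, ip φ (v i) := by
  rw [ip_eq_dot, dotProduct_sum]
  refine Finset.sum_congr rfl fun i _ => ?_
  rw [ip_eq_dot]

theorem ip_adjoint [DecidableEq n] (A : Matrix n n ℂ) (φ χ : n → ℂ) :
    ip φ (Aᴴ *ᵥ χ) = ip (A *ᵥ φ) χ := by
  rw [ip_eq_dot, ip_eq_dot, dotProduct_mulVec, star_mulVec]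

theorem re_star_mul_ge (z w : ℂ) : -(‖z‖ ^ 2 + ‖w‖ ^ 2) / 2 ≤ (star z * w).re := by
  rw [Complex.sq_norm, Complex.sq_norm, Complex.normSq_apply, Complex.normSq_apply]
  simp only [Complex.star_def, Complex.mul_re, Complex.conj_re, Complex.conj_im]
  nlinarith [sq_nonneg (z.re + w.re), sq_nonneg (z.im + w.im)]

theorem ip_re_ge (a b : n → ℂ) : -(nsq a + nsq b) / 2 ≤ (ip a b).re := by
  calc -(nsq a + nsq b) / 2 = ∑ σ, -(‖a σ‖ ^ 2 + ‖b σ‖ ^ 2) / 2 := by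
        rw [nsq_def, nsq_def, ← Finset.sum_add_distrib, ← Finset.sum_neg_distrib,
          Finset.sum_div]
    _ ≤ ∑ σ, (star (a σ) * b σ).re := Finset.sum_le_sum fun σ _ => re_star_mul_ge _ _
    _ = (ip a b).re := by rw [ip_def, Complex.re_sum]

theorem half_re (u v : ℂ) : ((1 / 2 : ℂ) * (u + v)).re = (u.re + v.re) / 2 := by
  simp
  ring

theorem re_star_real_mul (r : ℝ) (z : ℂ) : (star z * ((r : ℂ) * z)).re = r * ‖z‖ ^ 2 := by
  rw [Complex.sq_norm, Complex.normSq_apply]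
  simp only [Complex.star_def, Complex.mul_re, Complex.mul_im, Complex.conj_re, Complex.conj_im,
    Complex.ofReal_re, Complex.ofReal_im]
  ring

end generic

/-! ### the diagonal part -/

/-- The diagonal of `S^z` at spin one: `1, 0, -1`. -/
noncomputable def zr (i : Fin 3) : ℝ := (((3 : ℕ) : ℝ) - 1) / 2 - ((i : ℕ) : ℝ)

theorem zr_zero : zr 0 = 1 := by
  unfold zr
  norm_num

theorem zr_one : zr 1 = 0 := by
  unfold zr
  norm_num

theorem zr_two : zr 2 = -1 := by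
  unfold zr
  norm_num

theorem zz_pointwise (a b : Fin 3) (w : ℝ) (hw : 0 ≤ w) :
    w - 2 * (if a = 0 then 0 else w) - 2 * (if b = 0 then 0 else w) ≤ zr a * zr b * w := by
  fin_cases a <;> fin_cases b <;>
    simp only [Fin.zero_eta, Fin.mk_one, Fin.reduceFinMk, zr_zero, zr_one, zr_two, if_true,
      Fin.reduceEq, if_false] <;>
    nlinarith

theorem cSz_eq {L : ℕ} (x : Fin L) :
    cSz 3 x = diagonal fun σ : Fin L → Fin 3 => ((zr (σ x) : ℝ) : ℂ) := by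
  have h : cSz 3 x = siteOp x (diagonal fun i : Fin 3 => ((zr i : ℝ) : ℂ)) := rfl
  rw [h, siteOp_diagonal]

theorem zz_mulVec {L : ℕ} (x y : Fin L) (ψ : (Fin L → Fin 3) → ℂ) (σ : Fin L → Fin 3) :
    ((cSz 3 x * cSz 3 y) *ᵥ ψ) σ = ((zr (σ x) * zr (σ y) : ℝ) : ℂ) * ψ σ := by
  rw [cSz_eq, cSz_eq, diagonal_mul_diagonal, mulVec_diagonal, Complex.ofReal_mul]

theorem zpart {L : ℕ} (x y : Fin L) (ψ : (Fin L → Fin 3) → ℂ) :
    nsq ψ - 2 * uw x ψ - 2 * uw y ψ ≤ (ip ψ ((cSz 3 x * cSz 3 y) *ᵥ ψ)).re := by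
  calc nsq ψ - 2 * uw x ψ - 2 * uw y ψ
      = ∑ σ : Fin L → Fin 3, (‖ψ σ‖ ^ 2 - 2 * (if σ x = 0 then 0 else ‖ψ σ‖ ^ 2)
          - 2 * (if σ y = 0 then 0 else ‖ψ σ‖ ^ 2)) := by
        rw [nsq_def, uw_def, uw_def, Finset.mul_sum, Finset.mul_sum, ← Finset.sum_sub_distrib,
          ← Finset.sum_sub_distrib]
    _ ≤ ∑ σ : Fin L → Fin 3, zr (σ x) * zr (σ y) * ‖ψ σ‖ ^ 2 :=
        Finset.sum_le_sum fun σ _ => zz_pointwise (σ x) (σ y) _ (sq_nonneg _)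
    _ = (ip ψ ((cSz 3 x * cSz 3 y) *ᵥ ψ)).re := by
        rw [ip_def, Complex.re_sum]
        refine Finset.sum_congr rfl fun σ _ => ?_
        rw [zz_mulVec, re_star_real_mul]

/-! ### the flip part -/

theorem flip_part {L : ℕ}
    (hK3 : ∀ (j : Fin L) (ψ : (Fin L → Fin 3) → ℂ), nsq (raise j *ᵥ ψ) = 2 * uw j ψ)
    {x y : Fin L} (hxy : x ≠ y) (ψ : (Fin L → Fin 3) → ℂ) :
    -(uw x ψ + uw y ψ)
      ≤ (ip ψ (((1 / 2 : ℂ) • (cSp 3 x * (cSp 3 y)ᴴ + (cSp 3 x)ᴴ * cSp 3 y)) *ᵥ ψ)).re := by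
  have hx : nsq (cSp 3 x *ᵥ ψ) = 2 * uw x ψ := hK3 x ψ
  have hy : nsq (cSp 3 y *ᵥ ψ) = 2 * uw y ψ := hK3 y ψ
  have e1 : ip ψ (((cSp 3 x)ᴴ * cSp 3 y) *ᵥ ψ) = ip (cSp 3 x *ᵥ ψ) (cSp 3 y *ᵥ ψ) := by
    rw [← mulVec_mulVec, ip_adjoint]
  have e2 : ip ψ ((cSp 3 x * (cSp 3 y)ᴴ) *ᵥ ψ) = ip (cSp 3 y *ᵥ ψ) (cSp 3 x *ᵥ ψ) := by
    rw [(spinSys 3).pm x y hxy, ← mulVec_mulVec, ip_adjoint]
  have h1 := ip_re_ge (cSp 3 x *ᵥ ψ) (cSp 3 y *ᵥ ψ)
  have h2 := ip_re_ge (cSp 3 y *ᵥ ψ) (cSp 3 x *ᵥ ψ)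
  rw [hx, hy] at h1
  rw [hx, hy] at h2
  rw [smul_mulVec, ip_smul_right, add_mulVec, ip_add_right, e1, e2, half_re]
  linarith

/-! ### one bond and the ring -/

theorem bond_lower {L : ℕ}
    (hK3 : ∀ (j : Fin L) (ψ : (Fin L → Fin 3) → ℂ), nsq (raise j *ᵥ ψ) = 2 * uw j ψ)
    {x y : Fin L} (hxy : x ≠ y) (ψ : (Fin L → Fin 3) → ℂ) :
    nsq ψ - 3 * uw x ψ - 3 * uw y ψ ≤ (ip ψ (bond (cSp 3) (cSz 3) x y *ᵥ ψ)).re := by
  have hb : bond (cSp 3) (cSz 3) x y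
      = cSz 3 x * cSz 3 y + (1 / 2 : ℂ) • (cSp 3 x * (cSp 3 y)ᴴ + (cSp 3 x)ᴴ * cSp 3 y) := rfl
  rw [hb, add_mulVec, ip_add_right, Complex.add_re]
  have h1 := zpart x y ψ
  have h2 := flip_part hK3 hxy ψ
  linarith

theorem ne_finRotate {L : ℕ} (hL : 2 ≤ L) (j : Fin L) : j ≠ finRotate L j := by
  obtain ⟨n, rfl⟩ : ∃ n, L = n + 2 := ⟨L - 2, by omega⟩
  intro h
  rw [finRotate_apply] at h
  have h' : j + 1 = j + 0 := by
    rw [add_zero]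
    exact h.symm
  exact Fin.zero_ne_one (add_left_cancel h').symm

/-- The energy bound, with the norm of the raised vector (job K3) as a hypothesis. -/
theorem energy_lower_of {L : ℕ}
    (hK3 : ∀ (j : Fin L) (ψ : (Fin L → Fin 3) → ℂ), nsq (raise j *ᵥ ψ) = 2 * uw j ψ)
    (hL : 2 ≤ L) (ψ : (Fin L → Fin 3) → ℂ) :
    (L : ℝ) * nsq ψ - 6 * ∑ j : Fin L, uw j ψ ≤ (ip ψ (ringH L *ᵥ ψ)).re := by
  have hH : ringH L = ∑ j : Fin L, bond (cSp 3) (cSz 3) j (finRotate L j) := by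
    rw [defs_aux_ringH]
    refine Finset.sum_congr rfl fun j _ => ?_
    rw [spinDot_eq_bond]
  have hsum : ∑ j : Fin L, uw (finRotate L j) ψ = ∑ j : Fin L, uw j ψ :=
    Equiv.sum_comp (finRotate L) (fun j => uw j ψ)
  rw [hH, sum_mulVec, ip_sum_right, Complex.re_sum]
  calc (L : ℝ) * nsq ψ - 6 * ∑ j : Fin L, uw j ψ
      = ∑ j : Fin L, (nsq ψ - 3 * uw j ψ - 3 * uw (finRotate L j) ψ) := by
        rw [Finset.sum_sub_distrib, Finset.sum_sub_distrib, ← Finset.mul_sum, ← Finset.mul_sum,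
          hsum, Finset.sum_const, Finset.card_univ, Fintype.card_fin, nsmul_eq_mul]
        ring
    _ ≤ ∑ j : Fin L, (ip ψ (bond (cSp 3) (cSz 3) j (finRotate L j) *ᵥ ψ)).re :=
        Finset.sum_le_sum fun j _ => bond_lower hK3 (ne_finRotate hL j) ψ

end Vale.Agent.Lib.P348.H99
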