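import Vale.Agent.Lib.P348.helper99.EnergyLower
import Vale.Agent.Lib.P348.helper4.SiteNorms

/-!
# P348, pool job K4 (helper99): the energy lower bound on the spin-one ring, final form

`energy_lower_of` (this seat) with the norm of the raised vector from job K3 (helper4).
-/

namespace Vale.Agent.Lib.P348.H99

open Matrix

open Vale.Agent.Lib.P361 Vale.Agent.Lib.P348

theorem energy_lower {L : ℕ} (hL : 2 ≤ L) (ψ : (Fin L → Fin 3) → ℂ) :
    (L : ℝ) * nsq ψ - 6 * ∑ j : Fin L, uw j ψ ≤ (ip ψ (ringH L *ᵥ ψ)).re :=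
  energy_lower_of (fun j φ => Vale.Agent.Lib.P348.H4.nsq_raise j φ) hL ψ

end Vale.Agent.Lib.P348.H99
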